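import Vale.Agent.P088.R2.H644.N.PkG

/-!
# P088, stage 3: third derivatives of the weight, second derivatives of the stiff part, the
derivative of the curvature, uniformly in the package
-/

open Set Filter
open scoped ContDiff Topology

noncomputable section

namespace Vale.Agent.P088.R2.H406.P

open Vale.Agent.P088.LR Vale.Agent.P088.HY Vale.Agent.P088.R2.H644.Sy
open Vale.Agent.P088.R2.H464.Cu Vale.Agent.P088.R2.H31.EP Vale.Agent.P088.R2.H644.Ep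
open Vale.Agent.P088.R2.H657.W Vale.Agent.P088.R2.H961.GW Vale.Agent.P088.R2.H644.Pf
open Vale.Agent.P088.R2.H644.Ch (Fg Wf LS)

variable {n : ℕ} {q₀ : Cst} {c : ℝ}

/-- `S₁ / S` at `r²`. -/
def lam (e₁ : ℝ) (d : Pk n) (z : VV n) : ℝ := H644.Ph1 2 Li e₁ rp dp (d.r2 z) / prS e₁ (d.r2 z)

section fam

variable {E ι : Type*} [NormedAddCommGroup E] [NormedSpace ℝ E] [Fintype ι]

/-- A bound of `D_i D_j D_k W` from the classes. -/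
theorem d3_ev {α : Type*} {σ : α → Sl E ι} {e : ι → E} {U : α → Set E} {u F : α → E → ℝ}
    {Φ : α → ℝ → ℝ} {N K w G δ : α → E → ℝ} {l : ℕ} (W : Wg U u Φ F N K w G δ 2)
    (f : FT σ e U δ l) {W' : α → E → ℝ} (hW : ∀ a, ∀ z ∈ U a, W' a z = Wt2 Φ u F a z) :
    ∀ᶠ C : ℝ in atTop, ∀ i j k, ∀ a, ∀ z ∈ U a,
      |(σ a).D i ((σ a).D j ((σ a).D k (W' a))) z| ≤ C * kp N K w G a z := by
  refine eventually_all.2 fun i => eventually_all.2 fun j => eventually_all.2 fun k => ?_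
  have h := (f.D1 W.op (W.d2 f f j k) i).ev W.kp0
  filter_upwards [h] with C hC a z hz
  have e1 := D_congr (σ a) (W.op a) (fun z hz => D_congr (σ a) (W.op a)
    (fun z hz => D_congr (σ a) (W.op a) (hW a) k hz) j hz) i hz
  rw [e1]
  exact hC a z hz

end fam

theorem d3_fam (hn : 1 ≤ n) (hc : 0 < c) (q₀ : Cst) (he : 0 < q₀.e₁) (A : ℝ) :
    ∀ᶠ C : ℝ in atTop, (∀ i j k, ∀ a : Fa n q₀, ∀ z ∈ Ug c A a.q a.d,
      |a.d.sx.D i (a.d.sx.D j (a.d.sx.D k (a.d.W a.q))) z| ≤ C *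
        (a.d.Kf a.q z + a.d.N a.q z * ((a.q.R)⁻¹ + tA a z) + Gn a.q a.d z)) ∧
      (∀ i j k, ∀ a : Fa n q₀, ∀ z ∈ Ug c A a.q a.d,
      |a.d.sy.D i (a.d.sy.D j (a.d.sy.D k (a.d.W a.q))) z| ≤ C *
        (a.d.Kf a.q z + a.d.N a.q z * ((a.q.R)⁻¹ + tA a z) + Gn a.q a.d z)) := by
  have h := lg_Ug hn (k := 3) (by norm_num) q₀ c A
  have δ0 : ∀ a : Fa n q₀, 0 ≤ (a.q.R)⁻¹ := fun a => inv_nonneg.2 (by linarith [a.g.R1])
  have W := wg_far (k := 2) (δ := fun a : Fa n q₀ => (a.q.R)⁻¹) (lsI he hc) (pcI n q₀) (mcI n q₀)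
    h (fun a z hz => hz.2.1.1) δ0 (fun a => δR1 a.g) ⟨1, zero_le_one, fun a => by rw [one_mul]⟩
  have hW : ∀ a : Fa n q₀, ∀ z ∈ Ug c A a.q a.d, a.d.W a.q z = Wt2 (fun a : Fa n q₀ =>
      (a.d.F a.q).Φ) (fun a => uu (a.d.F a.q) (a.d.l) (gi a.d.s₁))
      (Gu (prS q₀.e₁) (fun a : Fa n q₀ => a.d.F a.q) (fun a => a.d.l) fun a => gi a.d.s₁) a z := by
    intro a z hz
    unfold Wt2
    rw [Gu_eq]
    exact W_Ug' a.g a.ok hz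
  have fx := ft_x h.oO h.oU h.hx δ0 (tn1 (n := n) (k := 2) q₀ (by norm_num))
  have fy := ft_y h.oO h.oU h.hy δ0 (tn2 (n := n) (k := 2) q₀ (by norm_num))
  filter_upwards [d3_ev W fx hW, d3_ev W fy hW] with C h1 h2
  constructor
  · intro i j k a z hz
    have h3 := h1 i j k a z hz
    rw [kp, Gu_eq] at h3
    exact h3
  · intro i j k a z hz
    have h3 := h2 i j k a z hz
    rw [kp, Gu_eq] at h3
    exact h3

/-- `D_i D_j G` and `D_i (G S₁ / S)`. -/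
theorem g2_fam (hn : 1 ≤ n) (hc : 0 < c) (q₀ : Cst) (he : 0 < q₀.e₁) (A : ℝ) :
    ∀ᶠ C : ℝ in atTop, (∀ i j, ∀ a : Fa n q₀, ∀ z ∈ Ug c A a.q a.d,
      |a.d.sx.D i (a.d.sx.D j (Gn a.q a.d)) z| ≤ C * Gn a.q a.d z) ∧
      (∀ i j, ∀ a : Fa n q₀, ∀ z ∈ Ug c A a.q a.d,
      |a.d.sy.D i (a.d.sy.D j (Gn a.q a.d)) z| ≤ C * Gn a.q a.d z) ∧
      (∀ i, ∀ a : Fa n q₀, ∀ z ∈ Ug c A a.q a.d,
      |a.d.sx.D i (fun z => 2 * (Gn a.q a.d z * lam a.q.e₁ a.d z)) z| ≤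
        C * (Gn a.q a.d z * (√(a.d.r2 z))⁻¹)) ∧
      (∀ i, ∀ a : Fa n q₀, ∀ z ∈ Ug c A a.q a.d,
      |a.d.sy.D i (fun z => 2 * (Gn a.q a.d z * lam a.q.e₁ a.d z)) z| ≤
        C * (Gn a.q a.d z * (√(a.d.r2 z))⁻¹)) := by
  have h := lg_Ug hn (k := 3) (by norm_num) q₀ c A
  have hS := lsI (e₁ := q₀.e₁) he hc
  have w := wf_uu (mcI n q₀) h hS.c0.le (fun a z (hz : z ∈ Ug c A a.q a.d) => hz.2.1.1)
  have δ0 : ∀ a : Fa n q₀, 0 ≤ (a.q.R)⁻¹ := fun a => inv_nonneg.2 (by linarith [a.g.R1])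
  have fx := ft_x h.oO h.oU h.hx δ0 (tn1 (n := n) (k := 2) q₀ (by norm_num))
  have fy := ft_y h.oO h.oU h.hy δ0 (tn2 (n := n) (k := 2) q₀ (by norm_num))
  have eG : ∀ a : Fa n q₀, Fg (prS q₀.e₁) (fun a : Fa n q₀ => uu (a.d.F a.q) a.d.l (gi a.d.s₁))
      (fun a => r2 (gi a.d.s₁)) a = Gn a.q a.d := by
    intro a
    funext z
    rw [← Gu_eq]
    simp [Gu, Fg]
  have G1 : Sf (fun a : Fa n q₀ => Ug c A a.q a.d) (fun _ _ => 1) (fun a => Gn a.q a.d) 3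
      (fun a => Gn a.q a.d) := by
    have h1 := (hS.F w).mono_k (l := 3) (by norm_num)
    have h2 := h1.congr h.oU (f' := fun a => Gn a.q a.d) fun a z _ => by rw [eG]
    exact h2.wcongr fun a z _ => by rw [eG]
  have G0 : ∀ a : Fa n q₀, ∀ z ∈ Ug c A a.q a.d, 0 ≤ Gn a.q a.d z := fun a z _ => Gn_nn a.g a.ok z
  have L1 : Sf (fun a : Fa n q₀ => Ug c A a.q a.d) (fun _ _ => 1)
      (fun a z => (√(a.d.r2 z))⁻¹) 3 (fun a => lam a.q.e₁ a.d) := by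
    have h1 := ((hS.lamf w).mono_k (l := 3) (by norm_num)).mono_ρ (w.rp hS.c0)
      (fun _ _ _ => one_pos) (fun a z _ => inv_nonneg.2 (Real.sqrt_nonneg _))
      (A := (√c)⁻¹) fun a z hz => by
        rw [← div_eq_inv_mul, one_le_div₀ (Real.sqrt_pos.2 hS.c0)]
        exact Real.sqrt_le_sqrt (w.hρ a z hz).le
    refine h1.congr h.oU fun a z _ => ?_
    unfold lam
    rw [a.e₁]
    rfl
  have K1 : Sf (fun a : Fa n q₀ => Ug c A a.q a.d) (fun _ _ => 1)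
      (fun a z => Gn a.q a.d z * (√(a.d.r2 z))⁻¹) 3
      (fun a z => 2 * (Gn a.q a.d z * lam a.q.e₁ a.d z)) :=
    (((G1.mul h.oU L1).csmul h.oU 2).congr h.oU fun a z _ => by simp)
  have K0 : ∀ a : Fa n q₀, ∀ z ∈ Ug c A a.q a.d, 0 ≤ Gn a.q a.d z * (√(a.d.r2 z))⁻¹ :=
    fun a z hz => mul_nonneg (G0 a z hz) (inv_nonneg.2 (Real.sqrt_nonneg _))
  have a1 : ∀ᶠ C : ℝ in atTop, ∀ i j, ∀ a : Fa n q₀, ∀ z ∈ Ug c A a.q a.d,
      |a.d.sx.D i (a.d.sx.D j (Gn a.q a.d)) z| ≤ C * Gn a.q a.d z :=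
    eventually_all.2 fun i => eventually_all.2 fun j =>
      (fx.D1 h.oU (fx.D1 h.oU G1 j) i).ev G0
  have a2 : ∀ᶠ C : ℝ in atTop, ∀ i j, ∀ a : Fa n q₀, ∀ z ∈ Ug c A a.q a.d,
      |a.d.sy.D i (a.d.sy.D j (Gn a.q a.d)) z| ≤ C * Gn a.q a.d z :=
    eventually_all.2 fun i => eventually_all.2 fun j =>
      (fy.D1 h.oU (fy.D1 h.oU G1 j) i).ev G0
  have a3 : ∀ᶠ C : ℝ in atTop, ∀ i, ∀ a : Fa n q₀, ∀ z ∈ Ug c A a.q a.d,
      |a.d.sx.D i (fun z => 2 * (Gn a.q a.d z * lam a.q.e₁ a.d z)) z| ≤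
        C * (Gn a.q a.d z * (√(a.d.r2 z))⁻¹) :=
    eventually_all.2 fun i => (fx.D1 h.oU K1 i).ev K0
  have a4 : ∀ᶠ C : ℝ in atTop, ∀ i, ∀ a : Fa n q₀, ∀ z ∈ Ug c A a.q a.d,
      |a.d.sy.D i (fun z => 2 * (Gn a.q a.d z * lam a.q.e₁ a.d z)) z| ≤
        C * (Gn a.q a.d z * (√(a.d.r2 z))⁻¹) :=
    eventually_all.2 fun i => (fy.D1 h.oU K1 i).ev K0
  filter_upwards [a1, a2, a3, a4] with C h1 h2 h3 h4
  exact ⟨h1, h2, h3, h4⟩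

end Vale.Agent.P088.R2.H406.P
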