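import Vale.Agent.P088.R2.H660.P.Rows
import Vale.Agent.P088.R2.H406.P.Fam3
import Vale.Agent.P088.R2.H406.P.Hh
import Vale.Agent.P088.R2.H238.C.Geo

/-!
# P088, stage 3, zone P: the fields of row P-W with a constant before `M₀`
-/

open Set Filter
open scoped ContDiff Topology

noncomputable section

namespace Vale.Agent.P088.R2.H406.P

open Vale.Agent.P088.LR Vale.Agent.P088.HY Vale.Agent.P088.R2.H644.Sy
open Vale.Agent.P088.R2.H464.Cu Vale.Agent.P088.R2.H31.EP Vale.Agent.P088.R2.H644.Ep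
open Vale.Agent.P088.R2.H657.W Vale.Agent.P088.R2.H961.GW Vale.Agent.P088.R2.H644.Pf
open Vale.Agent.P088.R2.H747.A (rr lS lS₁ lS₂ D₂ ff GG NG ee hh OmB)
open Vale.Agent.P088.R2.H660.P (sP tP hP Wc2 kP KP OmP RowPSz)
open Vale.Agent.P088.R2.H406.U (Dir dirx diry hq dhq_le)

variable {n : ℕ} {q q₀ : Cst} {d : Pk n} {c A : ℝ}

/-- The list of bounds. -/
structure X3 (q : Cst) (d : Pk n) (C : ℝ) (z : VV n) : Prop where
  wx : ∀ i j k, |d.sx.D i (d.sx.D j (d.sx.D k (d.W q))) z| ≤ C * (d.N q z + Gn q d z)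
  wy : ∀ i j k, |d.sy.D i (d.sy.D j (d.sy.D k (d.W q))) z| ≤ C * (d.N q z + Gn q d z)
  gx : ∀ i j, |d.sx.D i (d.sx.D j (Gn q d)) z| ≤ C * Gn q d z
  gy : ∀ i j, |d.sy.D i (d.sy.D j (Gn q d)) z| ≤ C * Gn q d z
  kx : ∀ i, |d.sx.D i (fun z => 2 * (Gn q d z * lam q.e₁ d z)) z| ≤ C * (Gn q d z * (√(d.r2 z))⁻¹)
  ky : ∀ i, |d.sy.D i (fun z => 2 * (Gn q d z * lam q.e₁ d z)) z| ≤ C * (Gn q d z * (√(d.r2 z))⁻¹)

theorem x3_fam (hn : 1 ≤ n) {cf Af : Cst → ℝ} (hcf : NB_M₀ cf) (hAf : NB_M₀ Af) (q₀ : Cst)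
    (he : 0 < q₀.e₁) (hc : 0 < cf q₀) : ∃ C : ℝ, 1 ≤ C ∧ ∀ a : Fa n q₀,
      ∀ z ∈ Ug (cf a.q) (Af a.q) a.q a.d, X3 a.q a.d C z := by
  obtain ⟨C, ⟨h1, h2⟩, h3⟩ := (((d3_fam hn hc q₀ he (Af q₀)).and (g2_fam hn hc q₀ he (Af q₀))).and
    (eventually_ge_atTop 1)).exists
  have hL0 := abs_nonneg q₀.L
  refine ⟨C * (|q₀.L| + 4), by nlinarith, fun a z hz => ?_⟩
  rw [a.nb hcf, a.nb hAf] at hz
  have hG := Gn_nn a.g a.ok z
  have hN := N_nn a.g a.ok z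
  have hR : 0 < a.q.R := by linarith [a.g.R1]
  have hRi := δR1 a.g
  have hK : a.d.Kf a.q z ≤ (|q₀.L| + 1 / 20) * a.d.N a.q z := by
    have := K_N a.g a.ok z
    rwa [a.L] at this
  have ht : a.d.N a.q z * ((a.q.R)⁻¹ + tA a z) ≤ a.d.N a.q z * 3 :=
    mul_le_mul_of_nonneg_left (by linarith [tA_2 a z]) hN
  have p1 := mul_nonneg hL0 hG
  have p2 := mul_nonneg hL0 hN
  have C0 : 0 ≤ C := by linarith
  have k1 : C * (a.d.Kf a.q z + a.d.N a.q z * ((a.q.R)⁻¹ + tA a z) + Gn a.q a.d z) ≤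
      C * (|q₀.L| + 4) * (a.d.N a.q z + Gn a.q a.d z) := by
    rw [mul_assoc]
    refine mul_le_mul_of_nonneg_left ?_ C0
    nlinarith
  have CC : C ≤ C * (|q₀.L| + 4) := by nlinarith
  have hr : 0 ≤ Gn a.q a.d z * (√(a.d.r2 z))⁻¹ :=
    mul_nonneg hG (inv_nonneg.2 (Real.sqrt_nonneg _))
  exact ⟨fun i j k => (h1.1 i j k a z hz).trans k1, fun i j k => (h1.2 i j k a z hz).trans k1,
    fun i j => (h2.1 i j a z hz).trans (mul_le_mul_of_nonneg_right CC hG),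
    fun i j => (h2.2.1 i j a z hz).trans (mul_le_mul_of_nonneg_right CC hG),
    fun i => (h2.2.2.1 i a z hz).trans (mul_le_mul_of_nonneg_right CC hr),
    fun i => (h2.2.2.2 i a z hz).trans (mul_le_mul_of_nonneg_right CC hr)⟩

/-- **The bounds, uniformly in the constants from `M₀` on.** -/
theorem x3_gen (hn : 1 ≤ n) (cf Af : Cst → ℝ) (hcf : NB_M₀ cf) (hAf : NB_M₀ Af) :
    ∃ C : Cst → ℝ, NB_M₀ C ∧ (∀ q, 1 ≤ C q) ∧ ∀ q, Gc n q → 0 < cf q → ∀ d : Pk n, PkOk q d →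
      ∀ z ∈ Ug (cf q) (Af q) q d, X3 q d (C q) z := by
  have key : ∀ q₀ : Cst, ∃ C : ℝ, 1 ≤ C ∧ ∀ a : Fa n q₀, 0 < cf a.q →
      ∀ z ∈ Ug (cf a.q) (Af a.q) a.q a.d, X3 a.q a.d C z := by
    intro q₀
    by_cases hq : 0 < q₀.e₁ ∧ 0 < cf q₀
    · obtain ⟨C, h1, h2⟩ := x3_fam hn hcf hAf q₀ hq.1 hq.2
      exact ⟨C, h1, fun a _ => h2 a⟩
    · refine ⟨1, le_rfl, fun a h1 => absurd ⟨?_, ?_⟩ hq⟩
      · rw [← a.e₁]; exact a.g.e0
      · rwa [← a.nb hcf]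
  choose C hC0 hC using key
  refine ⟨fun q => C q.b_M₀, fun q => rfl, fun q => hC0 _, fun q hg hc d hd z hz => ?_⟩
  exact hC q.b_M₀ ⟨q, d, rfl, hg, hd⟩ hc z hz

/-! ### The functions on the region -/

theorem Ug_rr {z : VV n} (hc : 0 ≤ c) (hz : z ∈ Ug c A q d) : 0 < rr d z ∧
    rr d z < q.r₁ * Real.exp (-1) ∧ rr d z ^ 2 = d.r2 z ∧ 0 < d.r2 z := by
  have h0 : 0 < d.r2 z := lt_of_le_of_lt hc hz.2.1.1
  have h1 : 0 < rr d z := Real.sqrt_pos.2 h0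
  refine ⟨h1, ?_, Real.sq_sqrt h0.le, h0⟩
  refine lt_of_lt_of_le ?_ hz.2.2.2
  show √(d.r2 z) < A
  rw [Real.sqrt_lt' hz.2.2.1]
  exact hz.2.1.2

theorem GG_Gn (hg : Gc n q) (h : PkOk q d) (hc : 0 ≤ c) {z : VV n} (hz : z ∈ Ug c A q d) :
    GG q d z = Gn q d z := by
  obtain ⟨h1, h2, h3, h4⟩ := Ug_rr hc hz
  have e1 : GG q d z = Real.exp (ff q d z) := by
    have := h.sl.inn 1 0 (ff q d z, rr d z) h1 h2
    rw [if_pos rfl] at this
    exact this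
  have hp := prS_pos hg.e0 h4
  rw [e1]
  unfold ff lS Gn Pk.E
  rw [h3, Real.exp_add, Real.exp_log hp]

theorem KP_lam (hg : Gc n q) (h : PkOk q d) (hc : 0 ≤ c) {z : VV n} (hz : z ∈ Ug c A q d) :
    KP q d z = 2 * (Gn q d z * lam q.e₁ d z) := by
  obtain ⟨h1, h2, h3, h4⟩ := Ug_rr hc hz
  obtain ⟨R₁, hp⟩ := PP.isProf (H349.EP.pp_ok hg.e0)
  have e := hp.one (rr d z) h1
  rw [h3] at e
  have hS := (prS_pos hg.e0 h4).ne'
  unfold KP lam lS₁ prL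
  rw [GG_Gn hg h hc hz]
  have e2 : H644.Lf 2 Li q.e₁ rp dp (rr d z) = 2 * rr d z * H644.Ph1 2 Li q.e₁ rp dp (d.r2 z) /
      prS q.e₁ (d.r2 z) := by
    rw [eq_div_iff hS]
    exact e.symm
  rw [e2]
  field_simp

theorem hh_hq : (hh : Fin n → VV n → ℝ) = hq := by
  funext l z
  unfold hh hq
  rw [H644.qq_eq]
  rfl

/-- The region of row P-W. -/
def cfP (q : Cst) : ℝ := (q.c₀ / 2) ^ 2

def AfP (q : Cst) : ℝ := |2 * q.p₁ + 1| + 1

theorem OmP_Ug (hR : 0 < q.R) (hA : AfP q ≤ q.r₁ * Real.exp (-1)) {b : Bool} {z : VV n}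
    (hz : z ∈ OmP q d b) : z ∈ Ug (cfP q) (AfP q) q d := by
  obtain ⟨⟨z1, -, z3, z4, -, -, -⟩, z5, z6, z7⟩ := hz
  have hA0 : 0 < AfP q := by unfold AfP; positivity
  refine ⟨⟨by linarith, by linarith⟩, ⟨z1, lt_of_lt_of_le z6 ?_⟩, hA0, hA⟩
  rw [← sq_abs]
  refine pow_le_pow_left₀ (abs_nonneg _) ?_ 2
  unfold AfP
  linarith

theorem num1 {C N G κ : ℝ} (hC : 1 ≤ C) (hG : 0 ≤ G) (hN : N ≤ κ * G) (hκ : κ ≤ 1) :
    C * (N + G) ≤ 3 * C * G := by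
  have h1 : κ * G ≤ G := mul_le_of_le_one_left hG hκ
  have h2 : N + G ≤ 2 * G := by linarith
  have h3 : C * (N + G) ≤ C * (2 * G) := mul_le_mul_of_nonneg_left h2 (by linarith)
  have h4 : 0 ≤ C * G := mul_nonneg (by linarith) hG
  linarith

theorem num2 {C p L : ℝ} (hC : 1 ≤ C) (hp : 0 ≤ p) (hL : 97 / 100 ≤ L) :
    C * p ≤ 3 * C * (p * L) := by
  have h1 : 0 ≤ C * p := mul_nonneg (by linarith) hp
  have h2 : C * p * (97 / 100) ≤ C * p * L := mul_le_mul_of_nonneg_left hL h1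
  have e : 3 * C * (p * L) = 3 * (C * p * L) := by ring
  rw [e]
  linarith

theorem num3 {r s : ℝ} (hr : 100 ≤ r) (h : r ^ 2 ≤ 101 / 100 * s) : 1 ≤ s := by
  have : 100 ^ 2 ≤ r ^ 2 := pow_le_pow_left₀ (by norm_num) hr 2
  linarith

theorem hP_bd {b : Bool} {z : VV n} (h : 1 ≤ H644.qq z) (i j : Fin n) :
    |(sP d b).D i (hP b j) z| ≤ 2 := by
  have q0 : 0 < H644.qq z := by linarith
  have s1 : 1 ≤ √(H644.qq z) := Real.one_le_sqrt.2 h
  have h2 : 2 * (√(H644.qq z))⁻¹ ≤ 2 := by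
    have := inv_le_one_of_one_le₀ s1
    linarith
  cases b
  · have e1 : (hP false j : VV n → ℝ) = fun z => -hq j z := by
      funext w
      show -hh j w = -hq j w
      rw [hh_hq]
    have e2 : (sP d false).D i (hP false j) z = -HY.dd (0, Pi.single i 1) (hq j) z := by
      rw [e1]
      simp [sP, Pk.sy, sly, Sl.D, HY.dd, fderiv_fun_neg]
    rw [e2, abs_neg]
    exact (dhq_le q0 (diry i) j).trans h2
  · have e1 : (hP true j : VV n → ℝ) = hq j := by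
      funext w
      show hh j w = hq j w
      rw [hh_hq]
    have e2 : (sP d true).D i (hP true j) z = HY.dd (Pi.single i 1, 0) (hq j) z := by
      rw [e1]
      simp [sP, Pk.sx, slx, Sl.D, HY.dd]
    rw [e2]
    exact (dhq_le q0 (dirx i) j).trans h2

/-- The bounds in terms of the functions of the rows. -/
theorem x3_at (hg : Gc n q) (h : PkOk q d) (hc : 0 ≤ c) {C : ℝ} (b : Bool) {z : VV n}
    (hU : z ∈ Ug c A q d) (X : X3 q d C z) :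
    (∀ i j k, |(sP d b).D i ((sP d b).D j ((sP d b).D k (d.W q))) z| ≤
      C * (d.N q z + Gn q d z)) ∧
    (∀ i j, |(sP d b).D i ((sP d b).D j (GG q d)) z| ≤ C * Gn q d z) ∧
    (∀ i, |(sP d b).D i (KP q d) z| ≤ C * (Gn q d z * (√(d.r2 z))⁻¹)) := by
  have hUo := Ug_open (c := c) (A := A) hg h
  have eK : ∀ z ∈ Ug c A q d, KP q d z = 2 * (Gn q d z * lam q.e₁ d z) :=
    fun z hz => KP_lam hg h hc hz
  have eGG : ∀ z ∈ Ug c A q d, GG q d z = Gn q d z := fun z hz => GG_Gn hg h hc hz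
  cases b
  · refine ⟨X.wy, fun i j => ?_, fun i => ?_⟩
    · have e := D_congr d.sy hUo (fun z hz => D_congr d.sy hUo eGG j hz) i hU
      exact (congrArg abs e).le.trans (X.gy i j)
    · have e := D_congr d.sy hUo eK i hU
      exact (congrArg abs e).le.trans (X.ky i)
  · refine ⟨X.wx, fun i j => ?_, fun i => ?_⟩
    · have e := D_congr d.sx hUo (fun z hz => D_congr d.sx hUo eGG j hz) i hU
      exact (congrArg abs e).le.trans (X.gx i j)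
    · have e := D_congr d.sx hUo eK i hU
      exact (congrArg abs e).le.trans (X.kx i)

/-- **The second half of row P-W.** -/
theorem pw3 (hn : 1 ≤ n) (hSz : RowPSz n) : ∃ C : Cst → ℝ, NB_M₀ C ∧ (∀ q, 1 ≤ C q) ∧
    EvC fun q => ∀ d : Pk n, PkOk q d → ∀ b : Bool, ∀ z ∈ OmP q d b,
      (∀ i j k, |(sP d b).D i ((sP d b).D j ((sP d b).D k (d.W q))) z| ≤ C q * GG q d z) ∧
      (∀ i j, |(sP d b).D i ((sP d b).D j (GG q d)) z| ≤ C q * GG q d z) ∧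
      (∀ i, |(sP d b).D i (KP q d) z| ≤ C q * KP q d z) ∧
      (∀ i j, |(sP d b).D i (hP b j) z| ≤ C q) := by
  obtain ⟨C, hC, C1, h1⟩ := x3_gen hn cfP AfP (fun q => rfl) (fun q => rfl)
  have h2 := hSz (fun _ => 1) (fun _ => 1) (fun q => rfl) (fun q => rfl) fun q => one_pos
  refine ⟨fun q => 3 * C q, fun q => by simp only; rw [hC q], fun q => by
    show 1 ≤ 3 * C q
    linarith [C1 q], ?_⟩
  have ev := ((Gc.ev n).and (ev_r1 (Af := AfP) fun q => rfl)).and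
    ((H238.C.EvC.thr.and (H238.C.EvC.te n)).and (h2.and EvC.pos))
  refine ev.mono fun q hq d hd b z hz => ?_
  obtain ⟨⟨hg, hA⟩, ⟨⟨T, E⟩, ⟨⟨k0, k1, hsz⟩, hpos⟩⟩⟩ := hq
  have hR : 0 < q.R := by linarith [hg.R1]
  have c0 : 0 < q.c₀ := hpos.1.2.2.2.2.2.1
  have hcf : 0 < cfP q := by unfold cfP; positivity
  have hU := OmP_Ug hR hA hz
  have X := h1 q hg hcf d hd z hU
  obtain ⟨s1, -, s3, -, s5, -, -, s8, -, -, -, -⟩ := hsz d hd b z hz
  obtain ⟨r1, -, r3, r4⟩ := Ug_rr hcf.le hU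
  have eG := GG_Gn hg hd hcf.le hU
  have CC := C1 q
  have G0 : 0 ≤ GG q d z := by linarith
  obtain ⟨x1, x2, x3⟩ := x3_at hg hd hcf.le b hU X
  rw [← eG] at x1 x2 x3
  have q1 : 1 ≤ H644.qq z := by
    have h3 := H238.C.r2_le hd T E z
    have h4 : HY.sq (z.1 - z.2) = H644.qq z := by rw [H644.qq_eq]; rfl
    rw [h4, ← r3] at h3
    exact num3 s8 h3
  refine ⟨fun i j k => (x1 i j k).trans (num1 CC G0 s3 k1), fun i j => (x2 i j).trans ?_,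
    fun i => (x3 i).trans ?_, fun i j => (hP_bd q1 i j).trans ?_⟩
  · show C q * GG q d z ≤ 3 * C q * GG q d z
    have : 0 ≤ C q * GG q d z := mul_nonneg (by linarith) G0
    linarith
  · have e : KP q d z = GG q d z * (√(d.r2 z))⁻¹ * lS₁ q (rr d z) := by
      show GG q d z * lS₁ q (rr d z) / √(d.r2 z) = _
      field_simp
    rw [e]
    exact num2 CC (mul_nonneg G0 (inv_nonneg.2 (Real.sqrt_nonneg _))) s5
  · show (2 : ℝ) ≤ 3 * C q
    linarith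

end Vale.Agent.P088.R2.H406.P
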